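import Vale.Agent.P088.R2.H591.X.CtF
import Vale.Agent.P088.R2.H997.EP.NNf
import Vale.Agent.P088.R2.H850.E.F2b
import Vale.Agent.P088.R2.H912.A.Sup

/-!
# P088, stage 3, EST': the other rows of the literal functions `F0`
-/

open Set Filter MeasureTheory
open scoped ContDiff Topology Matrix

noncomputable section

namespace Vale.Agent.P088.R2.H650.X

open Vale.Agent.P088.LR Vale.Agent.P088.HY
open Vale.Agent.P088.R2.H31.EP
open Vale.Agent.P088.R2.H551.E
open Vale.Agent.P088.R2.H867.EP (Zo zos mem_zos)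
open Vale.Agent.P088.R2.H455.E
open Vale.Agent.P088.R2.H558.G
open Vale.Agent.P088.R2.H591.X
open Vale.Agent.P088.R2.H935.G (RowGL)

variable {n : ℕ}

theorem lfN : H997.EP.LfN (F0 n) where
  kz := rfl
  GP := rfl
  RSn := rfl
  RSf := rfl
  iH := rfl
  iF := rfl
  iS := rfl

/-- **The other rows from the payments and the gains.** -/
theorem rest_F0 (hn : 1 ≤ n)
    (pay : ∀ L : Lc n, L.Ok → Lit (F0 n) L → ∀ k j, PayEG L k j)
    (gl : ∀ L : Lc n, L.Ok → Lit (F0 n) L → ∀ k, ∃ g : Cst → ℝ, NoM g ∧ RowGL (Mz L) k g) :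
    Rest (F0 n) where
  ct := fun _ hL hF => ctF hL hF
  nn := H997.EP.rest_nn hn lfN
  pay := pay
  gl := gl
  k2 := H997.EP.rest_k2 hn rfl
  f2 := H850.E.rowF2 hn
  sup := H912.A.rowSup n

end Vale.Agent.P088.R2.H650.X
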