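import Vale.Agent.P088.R2.H591.X.F0
import Vale.Agent.P088.R2.H312.S.Fin
import Vale.Agent.P088.R2.H53.RS.Zone
import Vale.Agent.P088.R2.H269.INF.ZiF
import Vale.Agent.P088.R2.H380.INF.IS
import Vale.Agent.P088.R2.H747.A.Asm
import Vale.Agent.P088.R2.H230.W.Geo9
import Vale.Agent.P088.R2.H644.N.Rows
import Vale.Agent.P088.R2.H475.A.Deep
import Vale.Agent.P088.R2.H657.A.Tot
import Vale.Agent.P088.R2.H983.A.RowSms
import Vale.Agent.P088.R2.H808.A.Sym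
import Vale.Agent.P088.R2.H912.A.Sup

/-!
# P088, stage 3, EST': the zone rows of the literal functions `F0`

The rows of the leaves `A1`, `A2`, `Af`, `RSn`, `RSf`, `iF`, `iS`.
-/

open Set Filter MeasureTheory
open scoped ContDiff Topology Matrix

noncomputable section

namespace Vale.Agent.P088.R2.H650.X

open Vale.Agent.P088.LR Vale.Agent.P088.HY
open Vale.Agent.P088.R2.H31.EP
open Vale.Agent.P088.R2.H551.E
open Vale.Agent.P088.R2.H867.EP (Zo zos mem_zos)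
open Vale.Agent.P088.R2.H455.E
open Vale.Agent.P088.R2.H558.G
open Vale.Agent.P088.R2.H591.X

variable {n : ℕ}

/-- **Zone A.** -/
theorem zoneA (hn : 1 ≤ n) : H747.A.ZoneA n :=
  H747.A.zoneA (H230.W.rowGeo n) (H644.Pf.rowMu n) (H475.A.rowDeep n) (H644.Pf.rowTotN hn)
    (H657.A.rowTotF hn)
    (H983.A.rowSms hn (H808.A.rowSym n) (H768.A.rowWd n) (H230.W.rowGeo n) )
    (H912.A.rowWX n)

/-- The leaves `A1`, `A2`, `Af`. -/
theorem zr_A (hn : 1 ≤ n) : ZRA (F0 n) := ZRA.of (zoneA hn)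

/-- The leaf `RSn`. -/
theorem zr_RSn (hn : 3 ≤ n) : ZRF (F0 n) .RSn :=
  ZRF.of (by simp) (H312.S.zone_RSn n hn)

/-- The leaf `RSf`. -/
theorem zr_RSf (hn : 3 ≤ n) : ZRF (F0 n) .RSf :=
  ZRF.of (by simp) (H53.RS.zone_RSf n hn)

/-- The leaf `iF`. -/
theorem zr_iF (hn : 1 ≤ n) : ZRF (F0 n) .iF :=
  ZRF.of (by simp) (H269.INF.zone_iF hn)

/-- The leaf `iS`. -/
theorem zr_iS (hn : 1 ≤ n) : ZRF (F0 n) .iS :=
  ZRF.of (by simp) (H380.INF.zone_iS hn)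

/-- **All the zones from the open rows.** -/
theorem zr_F0 (hn : 3 ≤ n) (h0 : ZR0 n) (hI : ZRI n) (h2 : ZR2 (F0 n)) (hB : ZRB (F0 n))
    (hT : ZRT n) (hP : ZRP (F0 n)) (hH : ZRF (F0 n) .iH) : ZR (F0 n) where
  z0 := h0
  zI := hI
  z2 := h2
  zB := hB
  T := hT
  A := zr_A (by omega)
  P := hP
  iH := hH
  iF := zr_iF (by omega)
  iS := zr_iS (by omega)
  RSn := zr_RSn hn
  RSf := zr_RSf hn

end Vale.Agent.P088.R2.H650.X
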